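import Vale.Agent.P113.Assembly

/-!
# P113: halting detection by particle trajectories of forced Navier-Stokes flows from rest

The affirmative answer to Q1, for every computable viscosity.
-/

open Set

namespace Vale.Agent.Results.P113.Main

open Vale.Agent.P113

/-- For every computable `ν > 0` there are a point `a` of the torus, an open set `O` and a force
compiler `F` such that for every machine `M` and every input `w` the Navier-Stokes system with
force `F.force M w`, started from rest, has a global smooth solution `(u, p)`, unique among
classical solutions on each `[0, T]`, and the trajectory of `a` under `u` is in `O` at some time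
`t ≥ 0` if and only if `M` halts on `w`. -/
theorem result (ν : ℝ) (hν : 0 < ν) (hc : IsComputableReal ν) :
    ∃ (a : T3) (O : Set T3) (F : ForceCompiler), IsOpen O ∧
      ∀ (M : Machine) (w : List M.Sym), ∃ (u : ℝ → T3 → V3) (p : ℝ → T3 → ℝ),
        SmoothField u ∧ SmoothField p ∧
        (∀ T, 0 < T → IsClassicalSolution ν (F.force M w) T u p) ∧
        (∀ T, 0 < T → ∀ v q, IsClassicalSolution ν (F.force M w) T v q →
          ∀ t ∈ Icc 0 T, ∀ x, v t x = u t x ∧ q t x = p t x) ∧
        (∃ X, IsTrajectory u a X) ∧
        (∀ X, IsTrajectory u a X → ((∃ t, 0 ≤ t ∧ X t ∈ O) ↔ M.Halts w)) :=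
  haltingDetection hν hc

end Vale.Agent.Results.P113.Main
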