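import Vale.Agent.P113.Sim.Show

/-!
# P113: forced Navier-Stokes flows that simulate Turing machines step by step

The affirmative answer to Q1, for every computable viscosity, by time-periodic flows that simulate
the machine in quadratic time.
-/

open Set

namespace Vale.Agent.Results.P113.Simulation

open Vale.Agent.P113

/-- For every computable `ν > 0` there are a point `a` of the torus, an open set `O` and a force
compiler `F` (with `T₀ = 1/16` and period `1`) such that for every machine `M` and every input `w`
the Navier-Stokes system with force `F.force M w`, started from rest, has a global smooth solution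
`(u, p)`, unique among classical solutions on each `[0, T]`, and the trajectory `X` of `a` under
`u` is in `O` at some time `t ≥ 0` if and only if `M` halts on `w`. Moreover `X(1/16)` is the
explicit rational point `M.inputPoint w`, and for every `k` such that `M` does not halt on `w`
before step `k`, the first coordinate of `X(1/16 + k(m + k))`, `m = max 1 |w|`, displays the
configuration of `M` after `k` steps on the input `w`, on `m + 2k` cells of the tape. -/
theorem result (ν : ℝ) (hν : 0 < ν) (hc : IsComputableReal ν) :
    ∃ (a : T3) (O : Set T3) (F : ForceCompiler), IsOpen O ∧ F.T₀ = 1 / 16 ∧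
      (∀ M, F.period M = 1) ∧
      ∀ (M : Machine) (w : List M.Sym), ∃ (u : ℝ → T3 → V3) (p : ℝ → T3 → ℝ),
        SmoothField u ∧ SmoothField p ∧
        (∀ T, 0 < T → IsClassicalSolution ν (F.force M w) T u p) ∧
        (∀ T, 0 < T → ∀ v q, IsClassicalSolution ν (F.force M w) T v q →
          ∀ t ∈ Icc 0 T, ∀ x, v t x = u t x ∧ q t x = p t x) ∧
        (∃ X, IsTrajectory u a X) ∧
        (∀ X, IsTrajectory u a X →
          ((∃ t, 0 ≤ t ∧ X t ∈ O) ↔ M.Halts w) ∧
          X (1 / 16) = proj (M.inputPoint w) ∧
          ∀ k : ℕ, (∀ j < k, M.halting (M.step^[j] (M.init w)).1 = false) →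
            M.Displays (M.step^[k] (M.init w)) (max 1 w.length + 2 * k)
              (X (1 / 16 + k * ((max 1 w.length : ℕ) + k)) 0)) :=
  Sim.simulation hν hc

end Vale.Agent.Results.P113.Simulation
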